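import Vale.Agent.P246.T.Spec2

/-! # P246W26: cochains of a filtered complex (pure algebra) -/

set_option linter.all false

namespace Vale.Agent.P246W26

open Vale.Agent.P246.T

variable {R : Type} [Ring R] {S : ℕ → Type} [∀ n, AddCommGroup (S n)] [∀ n, Module R (S n)]
  (d : ∀ n, S (n + 1) →ₗ[R] S n) (M : Type) [AddCommGroup M] [Module R M]
  (B A : ∀ n, Submodule R (S n))

/-- subcomplexes -/
def Sub : Prop := ∀ n, ∀ x ∈ A (n + 1), d n x ∈ A n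

/-- `H_k(B, A) = 0` -/
def HZ (k : ℕ) : Prop := ∀ x ∈ B k, DRel S d A k x → ∃ y ∈ B (k + 1), x - d k y ∈ A k

/-- `B / A` is projective -/
def LP (n : ℕ) : Prop := ∀ (N : Type) [AddCommGroup N] [Module R N] (T : Submodule R (S n × N)),
  (∀ x ∈ B n, ∃ y, (x, y) ∈ T) → (∀ x ∈ A n, (x, 0) ∈ T) →
    ∃ D : S n →ₗ[R] N, (∀ x ∈ B n, (x, D x) ∈ T) ∧ ∀ x ∈ A n, D x = 0

/-- `H^(n+1)(B, A; M) = 0` -/
def CV (n : ℕ) : Prop := ∀ φ : S (n + 1) →ₗ[R] M, (∀ x ∈ A (n + 1), φ x = 0) →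
  (∀ y ∈ B (n + 2), φ (d (n + 1) y) = 0) →
    ∃ ψ : S n →ₗ[R] M, (∀ x ∈ A n, ψ x = 0) ∧ ∀ x ∈ B (n + 1), φ x = ψ (d n x)

/-- the boundaries split -/
def Sp (n : ℕ) : Prop := ∃ D : S n →ₗ[R] S (n + 1), (∀ x ∈ B n, D x ∈ B (n + 1)) ∧
  (∀ x ∈ A n, D x = 0) ∧ ∀ y ∈ B (n + 1), d n y - d n (D (d n y)) ∈ A n

/-- the cycles split -/
def Rt (n : ℕ) : Prop := ∃ r : S n →ₗ[R] S n, (∀ x ∈ B n, r x ∈ B n ∧ DRel S d A n (r x)) ∧
  ∀ x, DRel S d A n x → r x = x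

/-- `H_n(B, A)` is zero or free on one generator -/
def Gen (n : ℕ) : Prop := ∃ z : S n,
  (∀ x ∈ B n, DRel S d A n x → ∃ c : R, ∃ y ∈ B (n + 1), x - c • z - d n y ∈ A n) ∧
    ∀ c : R, (∃ y ∈ B (n + 1), c • z - d n y ∈ A n) → c • z = 0

/-- relative cycles -/
def Zr (n : ℕ) : Submodule R (S (n + 1)) := B (n + 1) ⊓ (A n).comap (d n)

/-- relative boundaries -/
def Br (n : ℕ) : Submodule R (S n) := A n ⊔ (B (n + 1)).map (d n)

variable {d M B A} {A' : ∀ n, Submodule R (S n)}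

theorem drel_of (hA : Sub d A) : ∀ {n : ℕ} {x : S n}, x ∈ A n → DRel S d A n x
  | 0, _, _ => trivial
  | n + 1, x, h => hA n x h

theorem drel_d (hd : ∀ n x, d n (d (n + 1) x) = 0) : ∀ {n : ℕ} (y : S (n + 1)),
    DRel S d A n (d n y)
  | 0, _ => trivial
  | n + 1, y => by
    change d n _ ∈ A n
    rw [hd]; exact Submodule.zero_mem _

theorem drel_mono (h : ∀ n, A n ≤ A' n) : ∀ {n : ℕ} {x : S n}, DRel S d A n x → DRel S d A' n x
  | 0, _, _ => trivial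
  | n + 1, _, a => h n a

theorem drel_sub (hd : ∀ n x, d n (d (n + 1) x) = 0) : ∀ {n : ℕ} {x : S n} (y : S (n + 1)),
    DRel S d A n x → DRel S d A n (x - d n y)
  | 0, _, _, _ => trivial
  | n + 1, x, y, a => by
    change d n _ ∈ A n
    rw [map_sub, hd, sub_zero]; exact a

theorem HZ.gen {n : ℕ} (h : HZ d B A n) : Gen d B A n :=
  ⟨0, fun x a b => ⟨0, by simpa using h x a b⟩, fun c _ => smul_zero c⟩

theorem HZ.refl (n : ℕ) : HZ d A A n := fun x a _ => ⟨0, Submodule.zero_mem _, by simpa using a⟩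

theorem CV.refl (n : ℕ) : CV d M A A n := fun φ a _ => ⟨0, fun _ _ => rfl, a⟩

theorem HZ.trans (hd : ∀ n x, d n (d (n + 1) x) = 0) (h1 : ∀ n, A n ≤ A' n) (h2 : ∀ n, A' n ≤ B n)
    {n : ℕ} (h : HZ d B A' n) (h' : HZ d A' A n) : HZ d B A n := fun x a b => by
  obtain ⟨y, hy, e⟩ := h x a (drel_mono h1 b)
  obtain ⟨y', hy', e'⟩ := h' _ e (drel_sub hd y b)
  exact ⟨y + y', add_mem hy (h2 _ hy'), by rwa [map_add, ← sub_sub]⟩

theorem CV.trans (hd : ∀ n x, d n (d (n + 1) x) = 0) (h1 : ∀ n, A n ≤ A' n) (h2 : ∀ n, A' n ≤ B n)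
    {n : ℕ} (h : CV d M B A' n) (h' : CV d M A' A n) : CV d M B A n := fun φ a b => by
  obtain ⟨ψ, p, q⟩ := h' φ a fun y hy => b y (h2 _ hy)
  obtain ⟨ψ', p', q'⟩ := h (φ - ψ ∘ₗ d n) (fun x hx => by simp [q x hx])
    fun y hy => by simp [b y hy, hd]
  refine ⟨ψ + ψ', fun x hx => by simp [p x hx, p' x (h1 _ hx)], fun x hx => ?_⟩
  have := q' x hx
  simp only [LinearMap.sub_apply, LinearMap.comp_apply] at this
  rw [LinearMap.add_apply, ← this]; abel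

theorem Sp.rt (hB : Sub d B) {n : ℕ} (h : Sp d B A n) : Rt d B A (n + 1) := by
  obtain ⟨D, a, b, c⟩ := h
  refine ⟨LinearMap.id - D ∘ₗ d n, fun x hx => ⟨sub_mem hx (a _ (hB n x hx)), ?_⟩, fun x hx => ?_⟩
  · change d n (x - D (d n x)) ∈ A n
    rw [map_sub]; exact c x hx
  · change x - D (d n x) = x
    rw [b _ hx, sub_zero]

theorem Rt.sp (hd : ∀ n x, d n (d (n + 1) x) = 0) (hA : Sub d A) (hB : Sub d B) {n : ℕ}
    (l : LP B A n) (g : Gen d B A n) (h : Rt d B A n) : Sp d B A n := by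
  obtain ⟨r, a, b⟩ := h
  obtain ⟨z, g1, g2⟩ := g
  let p2 : S n × R × S (n + 1) →ₗ[R] S (n + 1) := LinearMap.snd R _ _ ∘ₗ LinearMap.snd R _ _
  obtain ⟨D, p, q⟩ := l (R × S (n + 1)) ((B (n + 1)).comap p2 ⊓ (A n).comap
    (r ∘ₗ LinearMap.fst R _ _ - LinearMap.toSpanSingleton R _ z ∘ₗ LinearMap.fst R _ _ ∘ₗ
      LinearMap.snd R _ _ - d n ∘ₗ p2))
    (fun x hx => by
      obtain ⟨c, y, hy, e⟩ := g1 _ (a x hx).1 (a x hx).2
      exact ⟨(c, y), hy, e⟩)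
    fun x hx => ⟨Submodule.zero_mem _, by
      change r x - (0 : R) • z - d n 0 ∈ A n
      rw [b x (drel_of hA hx)]; simpa using hx⟩
  refine ⟨LinearMap.snd R _ _ ∘ₗ D, fun x hx => (p x hx).1, fun x hx => by simp [q x hx],
    fun y hy => ?_⟩
  obtain ⟨u, v⟩ := p _ (hB n y hy)
  change r (d n y) - (D (d n y)).1 • z - d n (D (d n y)).2 ∈ A n at v
  rw [b _ (drel_d hd y)] at v
  have := g2 (D (d n y)).1 ⟨y - (D (d n y)).2, sub_mem hy u, by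
    rw [← neg_mem_iff, map_sub]
    convert v using 1; abel⟩
  rwa [this, sub_zero] at v

theorem rt_of (hd : ∀ n x, d n (d (n + 1) x) = 0) (hA : Sub d A) (hB : Sub d B)
    (l : ∀ n, LP B A n) : ∀ n, (∀ k < n, Gen d B A k) → Rt d B A n
  | 0, _ => ⟨LinearMap.id, fun _ hx => ⟨hx, trivial⟩, fun _ _ => rfl⟩
  | n + 1, g => ((rt_of hd hA hB l n fun k hk => g k (by omega)).sp hd hA hB (l n)
      (g n (by omega))).rt hB

theorem sp_of (hd : ∀ n x, d n (d (n + 1) x) = 0) (hA : Sub d A) (hB : Sub d B)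
    (l : ∀ n, LP B A n) (n : ℕ) (g : ∀ k ≤ n, Gen d B A k) : Sp d B A n :=
  (rt_of hd hA hB l n fun k hk => g k hk.le).sp hd hA hB (l n) (g n le_rfl)

theorem Sp.cv (hB : Sub d B) {n : ℕ} (h : Sp d B A n) (z : HZ d B A (n + 1)) : CV d M B A n := by
  obtain ⟨D, a, b, c⟩ := h
  refine fun φ p q => ⟨φ ∘ₗ D, fun x hx => by simp [b x hx], fun x hx => ?_⟩
  obtain ⟨y, hy, e⟩ := z (x - D (d n x)) (sub_mem hx (a _ (hB n x hx))) (by
    change d n _ ∈ A n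
    rw [map_sub]; exact c x hx)
  have := p _ e
  rwa [map_sub, map_sub, q y hy, sub_zero, sub_eq_zero] at this

variable (d M)

/-- the third cohomology of the whole complex vanishes -/
def SingH : Prop := ∀ f : S 3 →ₗ[R] M, (∀ x, f (d 3 x) = 0) →
  ∃ h : S 2 →ₗ[R] M, ∀ x, f x = h (d 2 x)

/-- the third cohomology of the complex of the filtration vanishes -/
def CellH (F : ℕ → ∀ n, Submodule R (S n)) : Prop := ∀ f : Zr d (F 4) (F 3) 2 →ₗ[R] M,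
  (∀ x : Zr d (F 4) (F 3) 2, x.1 ∈ Br d (F 4) (F 3) 3 → f x = 0) →
  (∀ w ∈ F 5 4, ∀ x : Zr d (F 4) (F 3) 2, x.1 = d 3 w → f x = 0) →
  ∃ h : Zr d (F 3) (F 2) 1 →ₗ[R] M,
    (∀ x : Zr d (F 3) (F 2) 1, x.1 ∈ Br d (F 3) (F 2) 2 → h x = 0) ∧
    ∀ (x : Zr d (F 4) (F 3) 2) (y : Zr d (F 3) (F 2) 1), y.1 = d 2 x.1 → f x = h y

/-- the data of a filtration -/
structure Fil (F : ℕ → ∀ n, Submodule R (S n)) : Prop where
  hd : ∀ n x, d n (d (n + 1) x) = 0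
  sub : ∀ k, Sub d (F k)
  le : ∀ k n, F k n ≤ F (k + 1) n
  l1 : ∀ k n, LP (fun _ => ⊤) (F k) n
  l2 : ∀ k n, LP (F (k + 1)) (F k) n
  l3 : ∀ n, LP (fun n => (⊤ : Submodule R (S n))) (fun _ => ⊥) n
  l4 : ∀ k n, LP (F k) (fun _ => ⊥) n
  z1 : ∀ k, ∀ n < k, HZ d (fun _ => ⊤) (F k) n
  z2 : ∀ k, ∀ n < k, HZ d (F (k + 1)) (F k) n
  cv : ∀ k, CV d M (F (k + 1)) (fun _ => ⊥) k

variable {d M} {F : ℕ → ∀ n, Submodule R (S n)}

theorem sub_top : Sub d fun n => (⊤ : Submodule R (S n)) := fun _ _ _ => trivial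

theorem Fil.dec (h : Fil d M F) {x : S 3} (hx : d 2 x ∈ F 3 2) :
    ∃ (z : Zr d (F 4) (F 3) 2) (b : S 4), x = z.1 + d 3 b := by
  obtain ⟨b, -, e⟩ := h.z1 4 3 (by omega) x trivial (h.le 3 2 hx)
  exact ⟨⟨x - d 3 b, e, drel_sub (n := 3) (A := F 3) h.hd b hx⟩, b, by simp⟩

theorem Fil.cell (h : Fil d M F) (s : SingH d M) : CellH d M F := fun f f1 f2 => by
  obtain ⟨r, a, b⟩ := rt_of h.hd (h.sub 3) sub_top (h.l1 3) 3 fun k hk => (h.z1 3 k hk).gen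
  let T : Submodule R (S 3 × M) :=
    { carrier := {q | ∃ (z : Zr d (F 4) (F 3) 2) (b : S 4), r q.1 = z.1 + d 3 b ∧ q.2 = f z}
      add_mem' := by
        rintro ⟨x, m⟩ ⟨x', m'⟩ ⟨z, b, e, rfl⟩ ⟨z', b', e', rfl⟩
        refine ⟨z + z', b + b', ?_, (map_add f _ _).symm⟩
        simp only [Prod.fst_add, map_add, e, e', Submodule.coe_add] at e e' ⊢
        abel
      zero_mem' := ⟨0, 0, by simp, by simp⟩
      smul_mem' := by
        rintro c ⟨x, m⟩ ⟨z, b, e, rfl⟩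
        refine ⟨c • z, c • b, ?_, (map_smul f _ _).symm⟩
        simp only [Prod.smul_fst, map_smul, e, smul_add, Submodule.coe_smul] at e ⊢ }
  obtain ⟨g, p, -⟩ := h.l3 3 M T (fun x _ => by
    obtain ⟨z, b, e⟩ := h.dec (a x trivial).2
    exact ⟨_, z, b, e, rfl⟩) fun x hx => by
      rw [(Submodule.mem_bot R).1 hx]; exact T.zero_mem
  have k : ∀ x (z : Zr d (F 4) (F 3) 2) (b : S 4), r x = z.1 + d 3 b → g x = f z := fun x z b e => by
    obtain ⟨z', b', e', m⟩ := p x trivial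
    have e2 : (z' - z).1 = d 3 (b - b') := by
      rw [map_sub, Submodule.coe_sub, sub_eq_sub_iff_add_eq_add]
      exact e'.symm.trans (e.trans (add_comm (G := S 3) _ _))
    obtain ⟨c, -, w⟩ := h.z1 5 4 (by omega) (b - b') trivial
      (h.le 4 3 (by rw [← e2]; exact (z' - z).2.1))
    have := f2 _ w (z' - z) (by rw [map_sub, h.hd, sub_zero, e2])
    rw [map_sub, sub_eq_zero] at this
    exact m.trans this
  have k1 : ∀ z : Zr d (F 4) (F 3) 2, g z.1 = f z := fun z =>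
    k _ z 0 (by rw [b z.1 z.2.2, map_zero, add_zero])
  have k2 : ∀ y ∈ F 3 3, g y = 0 := fun y hy =>
    (k1 ⟨y, h.le 3 3 hy, h.sub 3 2 y hy⟩).trans (f1 _ (Submodule.mem_sup_left hy))
  obtain ⟨u, hu⟩ := s g fun x => by
    rw [k _ 0 x (by rw [b _ (drel_d h.hd x)]; simp), map_zero]
  obtain ⟨v, -, hv⟩ := h.cv 1 u (fun x hx => by rw [(Submodule.mem_bot R).1 hx, map_zero])
    fun y hy => by rw [← hu, k2 y (h.le 2 3 hy)]
  refine ⟨(u - v ∘ₗ d 1) ∘ₗ Submodule.subtype _, fun x hx => ?_, fun x y e => ?_⟩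
  · obtain ⟨a, ha, _, ⟨y, hy, rfl⟩, e⟩ := Submodule.mem_sup.1 hx
    change u x.1 - v (d 1 x.1) = 0
    rw [← e, map_add, map_add, h.hd, add_zero, ← hu, k2 y hy, add_zero, hv a ha, sub_self]
  · change f x = u y.1 - v (d 1 y.1)
    rw [e, h.hd, map_zero, sub_zero, ← hu, k1]

theorem Fil.sing (h : Fil d M F) (s : CellH d M F) : SingH d M := fun f f1 => by
  obtain ⟨ψ, -, q⟩ := h.cv 2 f (fun x hx => by rw [(Submodule.mem_bot R).1 hx, map_zero])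
    fun y _ => f1 y
  obtain ⟨u, -, hu⟩ := s ((f - ψ ∘ₗ d 2) ∘ₗ Submodule.subtype _) (fun x hx => by
    obtain ⟨a, ha, _, ⟨y, hy, rfl⟩, e⟩ := Submodule.mem_sup.1 hx
    change f x.1 - ψ (d 2 x.1) = 0
    rw [← e, map_add, map_add, h.hd, add_zero, f1, add_zero, q a ha, sub_self]) fun w _ x e => by
      change f x.1 - ψ (d 2 x.1) = 0
      rw [e, f1, h.hd, map_zero, sub_zero]
  obtain ⟨r, a, b⟩ := rt_of h.hd (h.sub 2) (h.sub 3) (h.l2 2) 2 fun k hk => (h.z2 2 k hk).gen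
  let T : Submodule R (S 2 × M) :=
    { carrier := {q | ∃ z : Zr d (F 3) (F 2) 1, r q.1 = z.1 ∧ q.2 = u z}
      add_mem' := by
        rintro ⟨x, m⟩ ⟨x', m'⟩ ⟨z, e, rfl⟩ ⟨z', e', rfl⟩
        exact ⟨z + z', by simp only [Prod.fst_add, map_add, e, e', Submodule.coe_add] at e e' ⊢,
          (map_add u _ _).symm⟩
      zero_mem' := ⟨0, by simp, by simp⟩
      smul_mem' := by
        rintro c ⟨x, m⟩ ⟨z, e, rfl⟩
        exact ⟨c • z, by simp only [Prod.smul_fst, map_smul, e, Submodule.coe_smul] at e ⊢,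
          (map_smul u _ _).symm⟩ }
  obtain ⟨g, p, -⟩ := h.l4 3 2 M T (fun x hx => ⟨_, ⟨r x, (a x hx).1, (a x hx).2⟩, rfl, rfl⟩)
    fun x hx => by rw [(Submodule.mem_bot R).1 hx]; exact T.zero_mem
  obtain ⟨D, -, -, c⟩ := sp_of h.hd (h.sub 3) sub_top (h.l1 3) 2 fun k hk =>
    (h.z1 3 k (by omega)).gen
  let φ : S 3 →ₗ[R] M := f - (ψ + g) ∘ₗ d 2
  refine ⟨ψ + g + φ ∘ₗ D, fun x => ?_⟩
  obtain ⟨z, y, e⟩ := h.dec (x := x - D (d 2 x)) (by rw [map_sub]; exact c x trivial)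
  have k : φ z.1 = 0 := by
    obtain ⟨z', e', m⟩ := p (d 2 z.1) z.2.2
    have := hu z z' (by rw [← e']; exact b _ (drel_d h.hd z.1))
    change f z.1 - ψ (d 2 z.1) = _ at this
    change f z.1 - (ψ (d 2 z.1) + g (d 2 z.1)) = 0
    rw [← sub_sub, this, sub_eq_zero]; exact m.symm
  have k2 : φ (d 3 y) = 0 := by
    change f _ - (ψ + g) (d 2 _) = 0
    rw [f1, h.hd, map_zero, sub_zero]
  have := congrArg φ e
  rw [map_add, k, k2, add_zero, map_sub, sub_eq_zero] at this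
  change f x - (ψ + g) (d 2 x) = _ at this
  change f x = (ψ + g) (d 2 x) + φ (D (d 2 x))
  rw [← this]; abel

end Vale.Agent.P246W26
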