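import Vale.Agent.P246W26.Top

/-! # P246W26: the cellular and the singular form of the `D(2)` condition agree -/

set_option linter.all false

namespace Vale.Agent.P246W26

open Topology Set Vale.Agent.P246 Vale.Agent.P246.T Vale.Agent.P246.T.Step Vale.Agent.P246.T.A1x

attribute [local instance] AC.deckAction

theorem hom_iff {E : Type} [TopologicalSpace E] (i : ℕ) :
    Subsingleton (RelH (univ : Set E) ∅ (i + 1)) ↔
      ∀ c : Ch (i + 1) E, bd i c = 0 → ∃ b : Ch (i + 2) E, bd (i + 1) b = c := by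
  refine QuotientAddGroup.subsingleton_iff.trans ?_
  rw [eq_top_iff]
  refine ⟨fun h c hc => ?_, fun h z _ => ?_⟩
  · have := @h ⟨c, PR.Con_univ c, by
      change bd i c ∈ Con ∅ i
      rw [hc]
      exact Submodule.zero_mem _⟩ trivial
    obtain ⟨a, ha, _, ⟨b, -, rfl⟩, e⟩ := AddSubgroup.mem_sup.1 this
    rw [show a = 0 from PR.Con_empty ha, zero_add] at e
    exact ⟨b, e⟩
  · obtain ⟨b, e⟩ := h z.1 (PR.Con_empty z.2.2)
    exact AddSubgroup.mem_sup_right ⟨b, PR.Con_univ b, e⟩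

theorem sing_iff {G E : Type} [Group G] [TopologicalSpace E] [MulAction G E]
    [ContinuousConstSMul G E] (M : Type) [AddCommGroup M] [Module (ZG G) M] :
    (∀ f : C(Dl 4, E) → M, (∀ (g : G) σ, f ((gm g).comp σ) = elt g • f σ) →
      (∀ τ, cobd f τ = 0) → ∃ h : C(Dl 3, E) → M,
        (∀ (g : G) σ, h ((gm g).comp σ) = elt g • h σ) ∧ ∀ σ, f σ = cobd h σ) ↔
      SingH (S := fun n => SC G n E) (dS G E) M := by
  refine ⟨fun h3 f hf => ?_, fun s f hf h0 => ?_⟩
  · obtain ⟨h, hh, hfh⟩ := h3 (fun σ => f (SC.mk G (Finsupp.single σ 1)))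
      (fun g σ => lin_single 3 f g σ) fun τ => (lin_bd 3 f τ).symm.trans (hf _)
    refine ⟨toLin 2 h hh, fun x => ?_⟩
    refine lin_ext 3 (f := f) (g := (toLin 2 h hh).comp (SC.d G 2 E)) (fun σ => ?_) x
    rw [LinearMap.comp_apply, lin_bd]
    simp only [toLin_single]
    exact hfh σ
  · obtain ⟨h, hh⟩ := s (toLin 3 f hf) fun x =>
      lin_ext 4 (f := (toLin 3 f hf).comp (SC.d G 3 E)) (g := 0) (fun σ => by
        rw [LinearMap.comp_apply, lin_bd]
        simp only [toLin_single]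
        exact h0 σ) x
    exact ⟨fun σ => h (SC.mk G (Finsupp.single σ 1)), lin_single 2 h,
      fun σ => (toLin_single 3 f hf σ).symm.trans ((hh _).trans (lin_bd 2 h σ))⟩

section

variable {E X : Type} [TopologicalSpace E] [TopologicalSpace X] [T2Space X]
  [CWComplex (univ : Set X)] {p : C(E, X)} [ContinuousConstSMul (Deck p) E]
  (hp : IsQuotientCoveringMap p (Deck p)) (M : Type) [AddCommGroup M] [Module (ZG (Deck p)) M]

/-- the relative cycles, over the group ring -/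
noncomputable abbrev ZZ (n : ℕ) : Submodule (ZG (Deck p)) (SC (Deck p) (n + 1) E) :=
  Zr (S := fun n => SC (Deck p) n E) (dS (Deck p) E) (SA hp (sk X (n + 2))) (SA hp (sk X (n + 1))) n

/-- the relative boundaries, over the group ring -/
noncomputable abbrev BB (n : ℕ) : Submodule (ZG (Deck p)) (SC (Deck p) (n + 1) E) :=
  Br (S := fun n => SC (Deck p) n E) (dS (Deck p) E) (SA hp (sk X (n + 2))) (SA hp (sk X (n + 1)))
    (n + 1)

/-- the class of a relative cycle -/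
noncomputable def cl (n : ℕ) : ZZ hp n →+ CellCh p (n + 1) where
  toFun x := QuotientAddGroup.mk ⟨x.1.un, x.2⟩
  map_zero' := rfl
  map_add' _ _ := rfl

variable {hp M}

theorem cl_surj {n : ℕ} (c : CellCh p (n + 1)) : ∃ x, cl hp n x = c := by
  obtain ⟨z, rfl⟩ := QuotientAddGroup.mk_surjective c
  exact ⟨⟨SC.mk _ z.1, z.2⟩, rfl⟩

theorem cl_zero {n : ℕ} (x : ZZ hp n) : cl hp n x = 0 ↔ x.1 ∈ BB hp n := by
  refine (QuotientAddGroup.eq_zero_iff _).trans ⟨fun h => ?_, fun h => ?_⟩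
  · obtain ⟨a, ha, _, ⟨b, hb, rfl⟩, e⟩ := AddSubgroup.mem_sup.1 h
    exact Submodule.mem_sup.2 ⟨SC.mk _ a, ha, _, ⟨SC.mk _ b, hb, rfl⟩, e⟩
  · obtain ⟨a, ha, _, ⟨b, hb, rfl⟩, e⟩ := Submodule.mem_sup.1 h
    exact AddSubgroup.mem_sup.2 ⟨a.un, ha, _, ⟨b.un, hb, rfl⟩, e⟩

theorem cl_act {n : ℕ} (g : Deck p) (x : ZZ hp n) :
    cl hp n (elt g • x) = deckAct p (n + 1) g (cl hp n x) :=
  congrArg QuotientAddGroup.mk (Subtype.ext (SC.un_elt_smul g x.1))

theorem cl_bd {n : ℕ} (x : ZZ hp (n + 1)) (y : ZZ hp n) (e : y.1 = dS (Deck p) E (n + 1) x.1) :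
    cellBd p (n + 1) (cl hp (n + 1) x) = cl hp n y :=
  congrArg QuotientAddGroup.mk (Subtype.ext e.symm)

theorem ex_bd {n : ℕ} (x : ZZ hp (n + 1)) : ∃ y : ZZ hp n, y.1 = dS (Deck p) E (n + 1) x.1 :=
  ⟨⟨_, bd_relZ _ _ (Over p (n + 1)) (n + 1) x.1.un x.2⟩, rfl⟩

theorem exA {n : ℕ} (f : ZZ hp n →ₗ[ZG (Deck p)] M) (h : ∀ x : ZZ hp n, x.1 ∈ BB hp n → f x = 0) :
    ∃ f' : CellCh p (n + 1) →+ M, IsLin (deckAct p (n + 1)) f' ∧ ∀ x, f' (cl hp n x) = f x := by
  let f' : CellCh p (n + 1) →+ M := (cl hp n).liftOfSurjective cl_surj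
    ⟨f.toAddMonoidHom, fun x hx => h x ((cl_zero x).1 hx)⟩
  have k : ∀ x, f' (cl hp n x) = f x := fun x =>
    AddMonoidHom.liftOfRightInverse_comp_apply _ _ _ _ x
  refine ⟨f', fun g c => ?_, k⟩
  obtain ⟨x, rfl⟩ := cl_surj (hp := hp) c
  rw [← cl_act, k, k, map_smul]

theorem exB {n : ℕ} (f' : CellCh p (n + 1) →+ M) (h : IsLin (deckAct p (n + 1)) f') :
    ∃ f : ZZ hp n →ₗ[ZG (Deck p)] M, ∀ x, f' (cl hp n x) = f x := by
  refine ⟨⟨(f'.comp (cl hp n) : ZZ hp n →+ M), fun r x => ?_⟩, fun _ => rfl⟩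
  change f' (cl hp n (r • x)) = r • f' (cl hp n x)
  rw [zg_smul r x, zg_smul r (f' _), Finsupp.sum, Finsupp.sum, map_sum, map_sum]
  exact Finset.sum_congr rfl fun g _ => by rw [map_zsmul, map_zsmul, cl_act, h]

theorem cell_iff : CohZero (CellCh p) (cellBd p) (deckAct p) M 2 ↔
    CellH (S := fun n => SC (Deck p) n E) (dS (Deck p) E) M fun k => SA hp (sk X k) := by
  refine ⟨fun H f f1 f2 => ?_, fun H f' f1 f2 => ?_⟩
  · obtain ⟨f', a, b⟩ := exA (hp := hp) (n := 2) f f1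
    obtain ⟨h', c, e⟩ := H f' a fun c => by
      obtain ⟨x, rfl⟩ := cl_surj (hp := hp) (n := 3) c
      obtain ⟨y, hy⟩ := ex_bd x
      rw [cl_bd x y hy, b]
      exact f2 x.1 x.2.1 y hy
    obtain ⟨h, k⟩ := exB (hp := hp) (n := 1) h' c
    refine ⟨h, fun x hx => ?_, fun x y hy => ?_⟩
    · rw [← k, (cl_zero x).2 hx, map_zero]
    · rw [← k, ← b, e, cl_bd (n := 1) x y hy]
  · obtain ⟨f, b⟩ := exB (hp := hp) (n := 2) f' f1
    obtain ⟨h, c, e⟩ := H f (fun x hx => by rw [← b, (cl_zero x).2 hx, map_zero]) fun w hw x hx => by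
      rw [← b, ← cl_bd (n := 2) ⟨w, hw, by
        change dS (Deck p) E 3 w ∈ SA hp (sk X 4) 3
        rw [← hx]
        exact x.2.1⟩ x hx]
      exact f2 _
    obtain ⟨h', a, k⟩ := exA (hp := hp) (n := 1) h c
    refine ⟨h', a, fun c => ?_⟩
    obtain ⟨x, rfl⟩ := cl_surj (hp := hp) (n := 2) c
    obtain ⟨y, hy⟩ := ex_bd (n := 1) x
    rw [cl_bd x y hy, b, k]
    exact e x y hy

end

/-- the bridge -/
theorem d2_iff (X : Type) [TopologicalSpace X] [T2Space X] [CWComplex (univ : Set X)]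
    [CWComplex.Finite (univ : Set X)] [ConnectedSpace X] : D2Cell X ↔ D2Condition X := by
  obtain ⟨-, -, hl⟩ := CWB.main X
  have hpc : PathConnectedSpace X := pathConnectedSpace_iff_connectedSpace.2 inferInstance
  refine exists_congr fun E => exists_congr fun _ => exists_congr fun p =>
    and_congr_right fun hp => and_congr_right fun hE => and_congr ⟨fun h i hi => ?_, fun h i hi => ?_⟩
      (forall_congr' fun M => forall_congr' fun _ => forall_congr' fun _ =>
        forall_congr' fun _ => ?_)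
  · exact (hom_iff i).1 (h _ (by omega))
  · obtain ⟨j, rfl⟩ : ∃ j, i = j + 1 := ⟨i - 1, by omega⟩
    exact (hom_iff j).2 (h j (by omega))
  · have := AC.locallyPathConnectedSpace hp.isLocalHomeomorph
    have hq := AC.isQuotientCoveringMap_deck hp
    let p' : C(E, X) := ⟨p, hp.continuous⟩
    have hc : ContinuousConstSMul (Deck p') E := ⟨fun d => d.1.continuous⟩
    have hq' : IsQuotientCoveringMap p' (Deck p') := hq
    have F := fil (G := Deck p') M hq'
    exact (cell_iff (p := p') (hp := hq')).trans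
      ((Iff.intro F.sing F.cell).trans (sing_iff (G := Deck p') M).symm)

end Vale.Agent.P246W26
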