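import Vale.Agent.P246.T.PR2
import Mathlib.Algebra.Category.Grp.Basic

/-! # P246: the `D(2)` condition with the cellular chains of the universal cover -/

namespace Vale.Agent.P246W26

open Topology Set Vale.Agent.P246 Vale.Agent.P246.T

section Sq

variable {A A' : AddCommGrpCat.{0}}

/-- The subquotient `Z / (N ∩ Z)` of an abelian group. -/
def Sq (Z N : AddSubgroup A) : AddCommGrpCat.{0} := AddCommGrpCat.of (Z ⧸ N.addSubgroupOf Z)

/-- The map of subquotients `[x] ↦ [f x]`. -/
def sqMap (f : A →+ A') {Z N : AddSubgroup A} {Z' N' : AddSubgroup A'} (hZ : ∀ x ∈ Z, f x ∈ Z')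
    (hN : ∀ x ∈ N, f x ∈ N') : Sq Z N →+ Sq Z' N' :=
  QuotientAddGroup.map _ _ ((f.domRestrict Z).codRestrict Z' fun x => hZ x x.2) fun x h => hN x h

end Sq

section Coh

variable {G : Type} [Group G]

/-- `f : C → M` is `ℤ[G]`-linear, where `g` acts on the abelian group `C` by `a g`. -/
def IsLin {C : AddCommGrpCat.{0}} (a : G → C →+ C) {M : Type} [AddCommGroup M] [Module (ZG G) M]
    (f : C →+ M) : Prop :=
  ∀ (g : G) (c : C), f (a g c) = elt g • f c

/-- `H^(n+1)` of `Hom_{ℤG}(C_*, M)` vanishes, for the complex `(C, d)` with the action `a`. -/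
def CohZero (C : ℕ → AddCommGrpCat.{0}) (d : ∀ n, C (n + 1) →+ C n) (a : ∀ n, G → C n →+ C n)
    (M : Type) [AddCommGroup M] [Module (ZG G) M] (n : ℕ) : Prop :=
  ∀ f : C (n + 1) →+ M, IsLin (a (n + 1)) f → (∀ c, f (d (n + 1) c) = 0) →
    ∃ h : C n →+ M, IsLin (a n) h ∧ ∀ c, f c = h (d n c)

end Coh

section Rel

/-- The group of singular `n`-chains of `E`. -/
noncomputable def Chains (n : ℕ) (E : Type) [TopologicalSpace E] : AddCommGrpCat.{0} :=
  AddCommGrpCat.of (Ch n E)

variable {E : Type} [TopologicalSpace E]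

/-- The singular boundary map. -/
noncomputable def bdry (n : ℕ) : Chains (n + 1) E →+ Chains n E := (bd n).toAddMonoidHom

/-- The map of singular chains induced by `f`. -/
noncomputable def chMap (f : C(E, E)) (n : ℕ) : Chains n E →+ Chains n E :=
  Finsupp.mapDomain.addMonoidHom fun σ : C(Dl (n + 1), E) => f.comp σ

/-- The singular `n`-chains in the subset `A`. -/
noncomputable def InSet (A : Set E) (n : ℕ) : AddSubgroup (Chains n E) :=
  (Finsupp.supported ℤ ℤ {σ : C(Dl (n + 1), E) | ∀ x, σ x ∈ A}).toAddSubgroup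

/-- Relative cycles of the pair `(B, A)`: chains in `B` whose boundary lies in `A`. -/
noncomputable def RelZ (B A : Set E) : (n : ℕ) → AddSubgroup (Chains n E)
  | 0 => InSet B 0
  | n + 1 => InSet B (n + 1) ⊓ (InSet A n).comap (bdry n)

/-- Relative boundaries of the pair `(B, A)`. -/
noncomputable def RelB (B A : Set E) (n : ℕ) : AddSubgroup (Chains n E) :=
  InSet A n ⊔ (InSet B (n + 1)).map (bdry n)

/-- The relative singular homology group `H_n(B, A; ℤ)`. -/
noncomputable def RelH (B A : Set E) (n : ℕ) : AddCommGrpCat.{0} := Sq (RelZ B A n) (RelB B A n)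

theorem chMap_relZ {f : C(E, E)} {B A : Set E} (hB : MapsTo f B B) (hA : MapsTo f A A) :
    ∀ (n : ℕ), ∀ c ∈ RelZ B A n, chMap f n c ∈ RelZ B A n
  | 0, _, h => push_mem hB h
  | n + 1, c, h => ⟨push_mem hB h.1, by
      have e : bdry n (chMap f (n + 1) c) = chMap f n (bdry n c) := push_bd f n c
      change bdry n (chMap f (n + 1) c) ∈ InSet A n
      rw [e]
      exact push_mem hA h.2⟩

theorem chMap_relB {f : C(E, E)} {B A : Set E} (hB : MapsTo f B B) (hA : MapsTo f A A) (n : ℕ) :
    ∀ c ∈ RelB B A n, chMap f n c ∈ RelB B A n := by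
  intro c h
  obtain ⟨a, ha, _, ⟨b, hb, rfl⟩, rfl⟩ := AddSubgroup.mem_sup.1 h
  rw [map_add]
  exact AddSubgroup.add_mem_sup (push_mem hA ha) ⟨_, push_mem hB hb, push_bd f n b⟩

theorem bdry_bdry (n : ℕ) (c : Chains (n + 2) E) : bdry n (bdry (n + 1) c) = 0 := PR.bd_bd n c

theorem bd_relZ (B A A' : Set E) : ∀ (n : ℕ), ∀ c ∈ RelZ B A (n + 1), bdry n c ∈ RelZ A A' n
  | 0, _, h => h.2
  | n + 1, c, h => ⟨h.2, by
      change bdry n (bdry (n + 1) c) ∈ InSet A' n
      rw [bdry_bdry]
      exact AddSubgroup.zero_mem _⟩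

theorem bd_relB (B A A' : Set E) (n : ℕ) : ∀ c ∈ RelB B A (n + 1), bdry n c ∈ RelB A A' n := by
  intro c h
  obtain ⟨a, ha, _, ⟨b, -, rfl⟩, rfl⟩ := AddSubgroup.mem_sup.1 h
  rw [map_add, bdry_bdry, add_zero]
  exact AddSubgroup.mem_sup_right ⟨a, ha, rfl⟩

/-- The map `H_n(B, A) → H_n(B, A)` induced by a map `f` of the pair: `[c] ↦ [f c]`. -/
noncomputable def relMap (f : C(E, E)) {B A : Set E} (hB : MapsTo f B B) (hA : MapsTo f A A)
    (n : ℕ) : RelH B A n →+ RelH B A n :=
  sqMap (chMap f n) (chMap_relZ hB hA n) (chMap_relB hB hA n)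

/-- The connecting map `H_(n+1)(B, A) → H_n(A, A')` of a triple: `[c] ↦ [∂ c]`. -/
noncomputable def relBd (B A A' : Set E) (n : ℕ) : RelH B A (n + 1) →+ RelH A A' n :=
  sqMap (bdry n) (bd_relZ B A A' n) (bd_relB B A A' n)

end Rel

section Cell

variable {E X : Type} [TopologicalSpace E] [TopologicalSpace X] [T2Space X]
  [CWComplex (univ : Set X)]

/-- The part of the covering space over the cells of dimension less than `n`: `Over p (n + 1)` is
the `n`-skeleton of the covering space. -/
def Over (p : E → X) (n : ℕ) : Set E := p ⁻¹' (CWComplex.skeletonLT (univ : Set X) n : Set X)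

/-- The cellular chains `C_n(E) = H_n(E^n, E^(n-1))` of the covering space `E`. -/
noncomputable def CellCh (p : E → X) (n : ℕ) : AddCommGrpCat.{0} :=
  RelH (Over p (n + 1)) (Over p n) n

/-- The cellular boundary map. -/
noncomputable def cellBd (p : E → X) (n : ℕ) : CellCh p (n + 1) →+ CellCh p n :=
  relBd (Over p (n + 2)) (Over p (n + 1)) (Over p n) n

theorem deck_over {p : E → X} (g : Deck p) (n : ℕ) :
    MapsTo (g.1 : C(E, E)) (Over p n) (Over p n) := fun x hx => by
  change p (g.1 x) ∈ (CWComplex.skeletonLT (univ : Set X) n : Set X)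
  rw [g.2 x]
  exact hx

/-- The action of a deck transformation on the cellular chains. -/
noncomputable def deckAct (p : E → X) (n : ℕ) (g : Deck p) : CellCh p n →+ CellCh p n :=
  relMap (g.1 : C(E, E)) (deck_over g (n + 1)) (deck_over g n) n

end Cell

/-- The `D(2)` condition: `X` has a simply connected covering space `E` (its universal cover) with
`H_i(E; ℤ) = 0` for all `i > 2`, and for every finitely generated module `M` over the group ring of
the deck group the third cohomology of `Hom_{ℤG}(C_*(E), M)` vanishes, where `C_*(E)` is the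
cellular chain complex. -/
def D2Cell (X : Type) [TopologicalSpace X] [T2Space X] [CWComplex (univ : Set X)] : Prop :=
  ∃ (E : Type) (_ : TopologicalSpace E) (p : E → X), IsCoveringMap p ∧ SimplyConnectedSpace E ∧
    (∀ i, 2 < i → Subsingleton (RelH (univ : Set E) ∅ i)) ∧
    ∀ (M : Type) [AddCommGroup M] [Module (ZG (Deck p)) M] [Module.Finite (ZG (Deck p)) M],
      CohZero (CellCh p) (cellBd p) (deckAct p) M 2

/-- The `D(2)` property of the group `G`. -/
def D2CellProperty (G : Type) [Group G] : Prop :=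
  ∀ (X : Type) [TopologicalSpace X] [T2Space X] [CWComplex (univ : Set X)]
    [CWComplex.Finite (univ : Set X)] [ConnectedSpace X] (x : X),
    Nonempty (FundamentalGroup X x ≃* G) → D2Cell X → HasFiniteTwoModel X

end Vale.Agent.P246W26
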