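import Vale.Agent.P246W26.Alg
import Vale.Agent.P246W26.Stmt
import Vale.Agent.P246.T.Fin

/-! # P246W26: the filtration of the singular chains of a covering space by the skeleta -/

set_option linter.all false

namespace Vale.Agent.P246W26

open Topology Set Vale.Agent.P246 Vale.Agent.P246.T Vale.Agent.P246.T.Step

variable {G X E : Type} [Group G] [TopologicalSpace X] [T2Space X]
  [TopologicalSpace E] [MulAction G E] [ContinuousConstSMul G E] {p : C(E, X)}

theorem lp (hp : IsQuotientCoveringMap p G) (B A : Set X) (n : ℕ) : LP (SA hp B) (SA hp A) n := by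
  intro N _ _ T h1 h2
  have hfree : ∀ (g : G) (e : E), g • e = e → g = 1 := by
    intro g e h
    obtain ⟨U, hU, H⟩ := hp.disjoint e
    exact H g ⟨e, ⟨e, mem_of_mem_nhds hU, h⟩, mem_of_mem_nhds hU⟩
  let Φ := LinearEquiv.ofBijective (A1f.Phi G E n) ⟨A1f.Phi_inj hfree, A1f.Phi_surj⟩
  have ex : ∀ σ : C(Dl (n + 1), E), ∃ y : N,
      ((∀ x, p (σ x) ∈ B) → (SC.mk G (Finsupp.single σ 1), y) ∈ T) ∧
        ((∀ x, p (σ x) ∈ A) → y = 0) := by
    intro σ
    by_cases hA : ∀ x, p (σ x) ∈ A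
    · exact ⟨0, fun _ => h2 _ (Finsupp.single_mem_supported ℤ _ hA), fun _ => rfl⟩
    by_cases hB : ∀ x, p (σ x) ∈ B
    · obtain ⟨y, hy⟩ := h1 (SC.mk G (Finsupp.single σ 1)) (Finsupp.single_mem_supported ℤ _ hB)
      exact ⟨y, fun _ => hy, fun h => absurd h hA⟩
    · exact ⟨0, fun h => absurd h hB, fun _ => rfl⟩
  choose y hy hy' using ex
  let D : SC G n E →ₗ[ZG G] N :=
    (Finsupp.linearCombination (ZG G) fun q : A1f.Orb G E n => y q.out) ∘ₗ Φ.symm.toLinearMap
  have hD : ∀ q : A1f.Orb G E n, D (SC.mk G (Finsupp.single q.out 1)) = y q.out := by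
    intro q
    have : Φ.symm (SC.mk G (Finsupp.single q.out 1)) = Finsupp.single q 1 := by
      rw [LinearEquiv.symm_apply_eq]
      change _ = A1f.Phi G E n _
      rw [A1f.Phi, Finsupp.linearCombination_single, one_smul]
    change Finsupp.linearCombination (ZG G) _ (Φ.symm _) = _
    rw [this, Finsupp.linearCombination_single, one_smul]
  have key : ∀ (C : Set X) (P : Submodule (ZG G) (SC G n E)), (∀ q : A1f.Orb G E n,
      (∀ x, p (q.out x) ∈ C) → SC.mk G (Finsupp.single q.out 1) ∈ P) → ∀ x ∈ SA hp C n, x ∈ P := by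
    intro C P h x hx
    refine PR.Con_ind (P := fun c => SC.mk G c ∈ P) P.zero_mem (fun a b => P.add_mem)
      (fun m σ hσ => ?_) hx
    obtain ⟨g, hg⟩ : ∃ g : G, (gm g).comp (Quotient.mk (A1f.rel G E n) σ).out = σ :=
      Quotient.mk_out (s := A1f.rel G E n) σ
    have e : SC.mk G (Finsupp.single σ m) =
        m • elt g • SC.mk G (Finsupp.single (Quotient.mk (A1f.rel G E n) σ).out 1) := by
      apply SC.un_inj
      change _ = m • (elt g • SC.mk G (Finsupp.single (Quotient.mk (A1f.rel G E n) σ).out 1)).un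
      rw [SC.un_elt_smul, SC.un_mk, SC.un_mk, push_single, hg, Finsupp.smul_single, smul_eq_mul,
        mul_one]
    rw [e]
    refine zsmul_mem (P.smul_mem _ (h _ fun x => ?_)) m
    have := hσ x
    rw [← hg] at this
    rwa [← hp.map_smul g]
  exact ⟨D, key B (T.comap (LinearMap.id.prod D)) fun q hq => by
    change (_, D _) ∈ T
    rw [hD]
    exact hy _ hq, key A (LinearMap.ker D) fun q hq => (hD q).trans (hy' _ hq)⟩

variable (G E) in
/-- the boundary maps -/
noncomputable def dS (n : ℕ) : SC G (n + 1) E →ₗ[ZG G] SC G n E := SC.d G n E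

theorem dd (n : ℕ) (x : SC G (n + 2) E) : dS G E n (dS G E (n + 1) x) = 0 := SD.bd_bd n x.un

theorem dm (hp : IsQuotientCoveringMap p G) (A : Set X) :
    Sub (S := fun n => SC G n E) (dS G E) (SA hp A) := d_mem hp A

variable (M : Type) [AddCommGroup M] [Module (ZG G) M]

theorem cell (hp : IsQuotientCoveringMap p G) {A B : Set X} {n : ℕ} {Φ : C(Dk n, X)}
    (hA : IsClosed A) (h : Attach n A B Φ) :
    (∀ k, k ≠ n → HZ (S := fun n => SC G n E) (dS G E) (SA hp B) (SA hp A) k) ∧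
      ∀ k, k + 1 ≠ n → CV (S := fun n => SC G n E) (dS G E) M (SA hp B) (SA hp A) k := by
  obtain ⟨Ψ, hΨ⟩ := MX.exists_lift hp Φ
  obtain ⟨ζ, hζ⟩ := fund.1 n
  obtain ⟨h1, h2, h3⟩ := CL.main E n G (p ⁻¹' B) (p ⁻¹' A) (fun g => (gm g).comp Ψ) ζ hζ
    (CC.main2 G X E p hp n A B Φ Ψ hA h hΨ)
  have z : ∀ k, k ≠ n → HZ (S := fun n => SC G n E) (dS G E) (SA hp B) (SA hp A) k := fun k hk x hx hxd => by
    obtain ⟨b, hb, hb'⟩ := h1 k hk x.un hx ((drel_iff hp A k x).1 hxd)
    exact ⟨SC.mk G b, hb, hb'⟩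
  refine ⟨z, fun k hk => (sp_of (S := fun n => SC G n E) dd (dm hp A) (dm hp B) (lp hp B A) k
    fun j _ => ?_).cv (dm hp B) (z _ hk)⟩
  by_cases hj : j = n
  swap
  · exact (z j hj).gen
  subst hj
  refine ⟨SC.mk G (push Ψ j ζ), fun x hx hxd => ?_, ?_⟩
  · obtain ⟨m, b, hb, hb'⟩ := h2 x.un hx ((drel_iff hp A j x).1 hxd)
    refine ⟨MonoidAlgebra.ofCoeff m, SC.mk G b, hb, ?_⟩
    rw [mem_SA, SC.un_sub, SC.un_sub, un_smul_push]
    exact hb'
  · rintro r ⟨y, hy, hr⟩
    have h4 : r.coeff = 0 := h3 _ ⟨y.un, hy, by rw [← un_smul_push]; exact hr⟩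
    rw [show r = 0 from MonoidAlgebra.ext h4, zero_smul]

section CW

open CWB

variable [CWComplex (univ : Set X)]

omit [T2Space X] in
theorem attach [DecidableEq (Cells X)] {T : Finset (Cells X)} {c : Cells X} (hc : c ∈ T)
    (hmax : ∀ c' ∈ T, c'.1 ≤ c.1) (hdown : ∀ c ∈ T, ∀ c' : Cells X, c'.1 < c.1 → c' ∈ T) :
    Attach c.1 (U (T.erase c)) (U T) (chi c) := by
  refine ⟨?_, ?_, ?_, ?_⟩
  · intro x hx
    obtain ⟨c', hc', h'⟩ := frontier c x hx
    refine mem_iUnion₂.2 ⟨c', Finset.mem_erase.2 ⟨?_, hdown c hc c' hc'⟩, h'⟩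
    rintro rfl
    exact lt_irrefl _ hc'
  · intro x hx hcon
    obtain ⟨c', hc', h'⟩ := mem_iUnion₂.1 hcon
    obtain ⟨c'', h3, h4⟩ := closed_open c'.1 c' rfl _ h'
    have h5 : c = c'' := disj (c := c) ⟨x, mem_ball_zero_iff.2 hx, rfl⟩ h3
    have h6 := hmax c' (Finset.mem_of_mem_erase hc')
    rcases h4 with rfl | h4
    · exact (Finset.mem_erase.1 hc').1 h5.symm
    · rw [← h5] at h4
      omega
  · intro x y hx hy hxy
    have h3 := (RelCWComplex.map c.1 c.2).injOn
      (by rw [RelCWComplex.source_eq]; exact mem_ball_zero_iff.2 hx)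
      (by rw [RelCWComplex.source_eq]; exact mem_ball_zero_iff.2 hy) hxy
    exact Subtype.ext h3
  · rw [range_chi]
    ext y
    simp only [U, mem_iUnion, mem_union, Finset.mem_erase, exists_prop]
    constructor
    · rintro ⟨c', hc', hy⟩
      by_cases e : c' = c
      · rw [← e]; exact Or.inr hy
      · exact Or.inl ⟨c', ⟨e, hc'⟩, hy⟩
    · rintro (⟨c', hc', hy⟩ | hy)
      · exact ⟨c', hc'.2, hy⟩
      · exact ⟨c, hc, hy⟩

theorem closed_U (T : Finset (Cells X)) : IsClosed (U T) :=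
  isClosed_biUnion_finset fun c _ => by
    rw [← range_chi]
    exact (isCompact_range (chi c).continuous).isClosed

/-- the skeleta -/
abbrev sk (X : Type) [TopologicalSpace X] [T2Space X] [CWComplex (univ : Set X)] (n : ℕ) : Set X :=
  CWComplex.skeletonLT (univ : Set X) n

theorem sk_eq {a : ℕ} {T : Finset (Cells X)} (h : ∀ c, c ∈ T ↔ c.1 < a) : U T = sk X a := by
  ext y
  simp only [U, sk, RelCWComplex.coe_skeletonLT, mem_iUnion, empty_union, h, Nat.cast_lt]
  exact ⟨fun ⟨c, h1, h2⟩ => ⟨c.1, h1, c.2, h2⟩, fun ⟨m, h1, j, h2⟩ => ⟨⟨m, j⟩, h1, h2⟩⟩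

theorem ind (a : ℕ) (P : ℕ → Prop) (Q : Set X → Prop) (h0 : Q (sk X a))
    (hs : ∀ (n : ℕ) (A B : Set X) (Φ : C(Dk n, X)), a ≤ n → P n → IsClosed A → sk X a ⊆ A →
      Attach n A B Φ → Q A → Q B) : ∀ (k : ℕ) (T : Finset (Cells X)), T.card = k →
    (∀ c ∈ T, ∀ c' : Cells X, c'.1 < c.1 → c' ∈ T) → (∀ c : Cells X, c.1 < a → c ∈ T) →
    (∀ c ∈ T, P c.1) → Q (U T) := by
  classical
  intro k
  induction k using Nat.strong_induction_on with
  | _ k ih =>
    intro T hT hdown hlow hP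
    by_cases hall : ∀ c ∈ T, c.1 < a
    · rwa [sk_eq fun c => ⟨hall c, hlow c⟩]
    push Not at hall
    obtain ⟨c0, hc0, ha⟩ := hall
    obtain ⟨c, hc, hmax⟩ := Finset.exists_max_image T (fun c => c.1) ⟨c0, hc0⟩
    have ha' : a ≤ c.1 := ha.trans (hmax c0 hc0)
    have l : ∀ c' : Cells X, c'.1 < a → c' ∈ T.erase c := fun c' h =>
      Finset.mem_erase.2 ⟨by rintro rfl; omega, hlow c' h⟩
    refine hs c.1 _ _ (chi c) ha' (hP c hc) (closed_U _) (fun y hy => ?_) (attach hc hmax hdown)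
      (ih _ (hT ▸ Finset.card_erase_lt_of_mem hc) _ rfl (fun c' hc' c'' h => ?_) l
        fun c' hc' => hP c' (Finset.mem_of_mem_erase hc'))
    · simp only [sk, RelCWComplex.coe_skeletonLT, mem_iUnion, empty_union, Nat.cast_lt] at hy
      obtain ⟨m, h1, j, h2⟩ := hy
      exact mem_iUnion₂.2 ⟨⟨m, j⟩, l _ h1, h2⟩
    · have h2 := hmax c' (Finset.mem_of_mem_erase hc')
      refine Finset.mem_erase.2 ⟨?_, hdown c' (Finset.mem_of_mem_erase hc') c'' h⟩
      rintro rfl
      omega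

theorem sa_univ (hp : IsQuotientCoveringMap p G) : SA hp univ = fun _ => ⊤ :=
  funext fun _ => eq_top_iff.2 fun x _ => PR.Con_univ x.un

theorem sa_empty (hp : IsQuotientCoveringMap p G) : SA hp ∅ = fun _ => ⊥ :=
  funext fun _ => eq_bot_iff.2 fun _ h => MX.mem_empty hp h

theorem fil [CWComplex.Finite (univ : Set X)] (hp : IsQuotientCoveringMap p G) :
    Fil (S := fun n => SC G n E) (dS G E) M fun k => SA hp (sk X k) := by
  classical
  have hfin : Finite (Cells X) := RelCWComplex.finite_cells_of_finite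
  have : Fintype (Cells X) := Fintype.ofFinite _
  have sub : ∀ {n : ℕ} {A B : Set X} {Φ : C(Dk n, X)}, Attach n A B Φ → A ⊆ B := fun h => by
    rw [h.eq]; exact subset_union_left
  have e : U (Finset.univ : Finset (Cells X)) = univ := by
    ext y
    obtain ⟨c, hc⟩ := exists_cell y
    exact ⟨fun _ => trivial, fun _ => mem_iUnion₂.2 ⟨c, Finset.mem_univ _, hc⟩⟩
  have e0 : sk X 0 = ∅ := CWComplex.skeletonLT_zero_eq_empty
  have z : ∀ k n, n < k → ∀ T : Finset (Cells X), (∀ c ∈ T, ∀ c' : Cells X, c'.1 < c.1 → c' ∈ T) →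
      (∀ c : Cells X, c.1 < k → c ∈ T) →
      HZ (S := fun n => SC G n E) (dS G E) (SA hp (U T)) (SA hp (sk X k)) n := fun k n h T h1 h2 =>
    ind k (fun _ => True) (fun B => HZ (S := fun n => SC G n E) (dS G E) (SA hp B) (SA hp (sk X k)) n)
      (HZ.refl n) (fun m A B Φ hm _ hA hs ha q => HZ.trans (S := fun n => SC G n E) dd (mono hp hs) (mono hp (sub ha))
        ((cell M hp hA ha).1 n (by omega)) q) _ T rfl h1 h2 fun _ _ => trivial
  let Tk : ℕ → Finset (Cells X) := fun k => Finset.univ.filter fun c => c.1 < k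
  have hk : ∀ k c, c ∈ Tk k ↔ c.1 < k := fun k c => by simp [Tk]
  refine ⟨dd, fun k => dm hp _, fun k => mono hp (RelCWComplex.skeletonLT_mono (by simp)),
    fun k n => ?_, fun k n => lp hp _ _ n, fun n => ?_, fun k n => ?_,
    fun k n h => ?_, fun k n h => ?_, fun k => ?_⟩
  · rw [← sa_univ hp]
    exact lp hp _ _ n
  · rw [← sa_univ hp, ← sa_empty hp]
    exact lp hp _ _ n
  · rw [← sa_empty hp]
    exact lp hp _ _ n
  · rw [← sa_univ hp, ← e]
    exact z k n h _ (fun _ _ _ _ => Finset.mem_univ _) fun _ _ => Finset.mem_univ _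
  · rw [← sk_eq (hk (k + 1))]
    exact z k n h _ (fun c a c' b => (hk _ _).2 (b.trans ((hk _ _).1 a)))
      fun c a => (hk _ _).2 (by omega)
  · rw [← sk_eq (hk (k + 1)), ← sa_empty hp, ← e0]
    exact ind 0 (fun m => m < k + 1)
      (fun B => CV (S := fun n => SC G n E) (dS G E) M (SA hp B) (SA hp (sk X 0)) k)
      (CV.refl k) (fun m A B Φ _ hm hA hs ha q => CV.trans (S := fun n => SC G n E) dd (mono hp hs) (mono hp (sub ha))
        ((cell M hp hA ha).2 k (by omega)) q) _ _ rfl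
      (fun c a c' b => (hk _ _).2 (b.trans ((hk _ _).1 a))) (fun c a => absurd a (by omega))
      fun c a => (hk _ _).1 a

end CW

end Vale.Agent.P246W26
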